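import Crest.Agent.N325.Sd.Piece

/-! Static expander decomposition: the list of the live edges inside a piece. -/

set_option autoImplicit false

namespace Crest.Agent.N325.Sd

open Finset Crest.Agent.N325.Lf

/-- the test for the edge `e` in the list of `v` -/
def keepE (G : Net) (m : ℕ → Bool) (v e : ℕ) : Bool :=
  decide (G.src e = v) && m (G.dst e) && decide (0 < G.cap e)

/-- the live edges inside the piece -/
def edgeL (G : Net) (m : ℕ → Bool) (X : List ℕ) : List ℕ :=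
  X.flatMap fun v => (G.adj v).filter (keepE G m v)

def edgeR (G : Net) (m : ℕ → Bool) (X : List ℕ) : R (List ℕ) :=
  flatMapL (fun v => filterP (keepE G m v) (G.adj v)) X

variable {g : Gl} {G : Net} {V X : List ℕ} {E : Finset ℕ} {μ : ℕ → ℕ} {m : ℕ → Bool} {κ h : ℕ}
  {a b : ℕ → ℕ}

theorem length_edgeL (hG : Graph G V E μ) (hXV : X ⊆ V) : (edgeL G m X).length ≤ ms μ X := by
  rw [edgeL, List.length_flatMap]
  exact List.sum_le_sum fun v hv => (List.length_filter_le _ _).trans (hG.len v (hXV hv))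

theorem sp_edgeR (hG : Graph G V E μ) (hXV : X ⊆ V) :
    Sp g (edgeR G m X) fun r t => r = edgeL G m X ∧ t ≤ 8 * ms μ X + 2 := by
  refine (sp_flatMapL (fun v => (G.adj v).filter (keepE G m v)) (fun v => 4 * μ v) fun v hv =>
    (sp_filterP _ _).mono fun r t k => ⟨k.1, ?_⟩).mono fun r t k => ⟨k.1, ?_⟩
  · have := hG.len v (hXV hv)
    have := hG.pos v (hXV hv)
    omega
  · have h1 := length_edgeL (m := m) hG hXV
    have h2 := length_le_ms fun v hv => hG.pos v (hXV hv)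
    have h3 := k.2
    rw [List.sum_map_mul_left] at h3
    change t ≤ 4 * ms μ X + 2 * (edgeL G m X).length + _ + _ at h3
    omega

theorem mem_edgeL (hG : Graph G V E μ) (hXV : X ⊆ V) (hm : ∀ v, m v = true ↔ v ∈ X.toFinset)
    {e : ℕ} : e ∈ edgeL G m X ↔ e ∈ eIn G E X.toFinset ∧ 0 < G.cap e := by
  simp only [edgeL, keepE, eIn, List.mem_flatMap, List.mem_filter, Bool.and_eq_true,
    decide_eq_true_eq, hm, mem_filter, List.mem_toFinset]
  constructor
  · rintro ⟨v, hv, he, ⟨rfl, h2⟩, h3⟩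
    exact ⟨⟨hG.wf.live _ (List.mem_toFinset.2 (hXV hv)) e he h3, hv, h2⟩, h3⟩
  · rintro ⟨⟨h1, h2, h3⟩, h4⟩
    exact ⟨_, h2, (hG.wf.full e h1 h4).1, ⟨rfl, h3⟩, h4⟩

theorem nodup_edgeL (hG : Graph G V E μ) (hX : X.Nodup) (hXV : X ⊆ V) : (edgeL G m X).Nodup := by
  rw [edgeL, List.nodup_flatMap]
  refine ⟨fun v hv => (hG.wf.nodup v (List.mem_toFinset.2 (hXV hv))).filter _, ?_⟩
  refine hX.imp fun {u v} huv => ?_
  simp only [Function.onFun, List.disjoint_left, keepE, List.mem_filter, Bool.and_eq_true,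
    decide_eq_true_eq]
  rintro e ⟨-, ⟨h1, -⟩, -⟩ ⟨-, ⟨h2, -⟩, -⟩
  exact huv (h1.symm.trans h2)

theorem edgeL_subset (hG : Graph G V E μ) (hXV : X ⊆ V) (hm : ∀ v, m v = true ↔ v ∈ X.toFinset) :
    (edgeL G m X).toFinset ⊆ eIn G E X.toFinset := fun _ he =>
  ((mem_edgeL hG hXV hm).1 (List.mem_toFinset.1 he)).1

theorem sub_WF' (hG : Graph G V E μ) (hXV : X ⊆ V) (hm : ∀ v, m v = true ↔ v ∈ X.toFinset) :
    (sub G m κ a b h).WF X.toFinset (edgeL G m X).toFinset := by
  have W := sub_WF (κ := κ) (a := a) (b := b) (h := h) hG.wf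
    (fun v hv => List.mem_toFinset.2 (hXV (List.mem_toFinset.1 hv))) hm
  have hs := edgeL_subset hG hXV hm
  refine ⟨fun e he => W.src_mem e (hs he), fun e he => W.dst_mem e (hs he), fun v hv e he hc => ?_,
    fun e he hc => W.full e (hs he) hc, W.nodup⟩
  have := W.live v hv e he hc
  exact List.mem_toFinset.2 ((mem_edgeL hG hXV hm).2
    ⟨this, (Nat.pos_of_mul_pos_left hc : 0 < wIn G m e).trans_le (wIn_le e)⟩)

/-- sums over the live edges are sums over all edges inside -/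
theorem sum_edgeL (hG : Graph G V E μ) (hXV : X ⊆ V) (hm : ∀ v, m v = true ↔ v ∈ X.toFinset)
    (p : ℕ → Prop) [DecidablePred p] :
    ∑ e ∈ (edgeL G m X).toFinset, (if p e then wIn G m e else 0) =
      ∑ e ∈ eIn G E X.toFinset, if p e then wIn G m e else 0 := by
  refine sum_subset (edgeL_subset hG hXV hm) fun e he hn => ?_
  have h1 : G.cap e = 0 := by
    by_contra h
    exact hn (List.mem_toFinset.2 ((mem_edgeL hG hXV hm).2 ⟨he, by omega⟩))
  have := wIn_le (G := G) (m := m) e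
  split_ifs <;> omega

theorem crs_sub' (hG : Graph G V E μ) (hXV : X ⊆ V) (hm : ∀ v, m v = true ↔ v ∈ X.toFinset)
    {S T : Finset ℕ} (hS : S ⊆ X.toFinset) (hT : T ⊆ X.toFinset) :
    (sub G m κ a b h).crs (edgeL G m X).toFinset (wIn G m) S T = G.crs E G.cap S T := by
  rw [← crs_sub (G := G) (E := E) (κ := κ) (a := a) (b := b) (h := h) hm hS hT]
  exact sum_edgeL hG hXV hm _

theorem wdeg_sub' (hG : Graph G V E μ) (hXV : X ⊆ V) (hm : ∀ v, m v = true ↔ v ∈ X.toFinset)
    {v : ℕ} (hv : v ∈ X.toFinset) :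
    (sub G m κ a b h).wdeg (edgeL G m X).toFinset (wIn G m) v ≤ μ v :=
  (le_of_eq (sum_edgeL hG hXV hm _)).trans ((wdeg_sub (κ := κ) (a := a) (b := b) (h := h) v).trans
    (hG.deg v (hXV (List.mem_toFinset.1 hv))))

theorem sum_wIn_le (hG : Graph G V E μ) (hX : X.Nodup) (hXV : X ⊆ V)
    (hm : ∀ v, m v = true ↔ v ∈ X.toFinset) :
    ∑ e ∈ (edgeL G m X).toFinset, wIn G m e ≤ ms μ X := by
  have W := sub_WF' (κ := 1) (a := id) (b := id) (h := 0) hG hXV hm
  have := le_sum_wdeg (N := sub G m 1 id id 0) (E := (edgeL G m X).toFinset) (wIn G m) X.toFinset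
    (fun _ => True) fun e he _ => Or.inl (W.src_mem e he)
  simp only [if_true] at this
  rw [ms_eq_sum μ hX]
  exact this.trans (sum_le_sum fun v hv => wdeg_sub' hG hXV hm hv)

end Crest.Agent.N325.Sd
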