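import Crest.Agent.N325.Lst.ListR

/-! Static expander decomposition, layer 1: the level-by-level recursion over an abstract step
that splits a piece into finished clusters and smaller pieces. -/

set_option autoImplicit false

namespace Crest.Agent.N325.Sd

/-- measure of a list of vertices -/
def ms (μ : ℕ → ℕ) (X : List ℕ) : ℕ := (X.map μ).sum

@[simp] theorem ms_nil (μ : ℕ → ℕ) : ms μ [] = 0 := rfl
@[simp] theorem ms_cons (μ : ℕ → ℕ) (v : ℕ) (X : List ℕ) : ms μ (v :: X) = μ v + ms μ X := by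
  simp [ms]
@[simp] theorem ms_append (μ : ℕ → ℕ) (X Y : List ℕ) : ms μ (X ++ Y) = ms μ X + ms μ Y := by
  simp [ms]
theorem ms_perm (μ : ℕ → ℕ) {X Y : List ℕ} (h : X.Perm Y) : ms μ X = ms μ Y := (h.map μ).sum_eq

theorem ms_flatten (μ : ℕ → ℕ) (U : List (List ℕ)) : ms μ U.flatten = (U.map (ms μ)).sum := by
  induction U with
  | nil => rfl
  | cons X U ih => simp [ih]

theorem ms_eq_sum (μ : ℕ → ℕ) {X : List ℕ} (h : X.Nodup) : ms μ X = ∑ v ∈ X.toFinset, μ v :=
  (List.sum_toFinset μ h).symm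

theorem length_le_ms {μ : ℕ → ℕ} {X : List ℕ} (h : ∀ v ∈ X, 1 ≤ μ v) : X.length ≤ ms μ X := by
  induction X with
  | nil => simp
  | cons v X ih =>
    have := h v (by simp)
    have := ih fun u hu => h u (by simp [hu])
    simp only [List.length_cons, ms_cons]; omega

/-- finished clusters and unfinished pieces -/
abbrev FU := List (List ℕ) × List (List ℕ)

/-- what one step must deliver on the piece `X` -/
structure StepOK (μ : ℕ → ℕ) (ins : List ℕ → ℕ) (Exp : List ℕ → Prop) (q K C : ℕ)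
    (X : List ℕ) (o : FU) : Prop where
  perm : (o.1.flatten ++ o.2.flatten).Perm X
  exp : ∀ A ∈ o.1, Exp A
  small : ∀ Y ∈ o.2, Y ≠ [] ∧ q * ms μ Y + ms μ X ≤ q * ms μ X
  len : o.1.length + o.2.length ≤ 2
  cut : K * ins X ≤ K * ((o.1.map ins).sum + (o.2.map ins).sum) + C * ms μ X

/-- process one piece -/
def piece (step : List ℕ → R FU) (X : List ℕ) (t : FU) : R FU := do
  let o ← step X
  let F ← revAppL o.1 t.1
  let U ← revAppL o.2 t.2
  pure (F, U)

/-- one level: all pieces -/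
def level (step : List ℕ → R FU) (s : FU) : R FU := foldL (piece step) s.2 (s.1, [])

/-- `D` levels -/
def levels (step : List ℕ → R FU) (D : ℕ) (V : List ℕ) : R (List (List ℕ)) := do
  let s ← forN (fun _ s => level step s) D 0 ([], List.casesOn V [] fun _ _ => [V])
  pure s.1

theorem two_mul_pow_le (p : ℕ) : 2 * p ^ (p + 1) ≤ (p + 1) ^ (p + 1) := by
  have := pow_add_mul_le_add_pow (R := ℕ) (a := p) (b := 1) (Nat.zero_le _) (Nat.zero_le _) (p + 1)
  rw [Nat.add_sub_cancel, mul_one] at this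
  have e : p ^ (p + 1) ≤ (p + 1) * p ^ p := by rw [pow_succ, mul_comm]; gcongr; omega
  simp only [Nat.cast_id] at this
  omega

theorem eq_zero_of_decay {p k x M : ℕ} (hM : M < 2 ^ k)
    (h : (p + 1) ^ ((p + 1) * k) * x ≤ p ^ ((p + 1) * k) * M) : x = 0 := by
  by_contra hx
  have h1 : 2 ^ k * p ^ ((p + 1) * k) ≤ (p + 1) ^ ((p + 1) * k) := by
    rw [pow_mul, pow_mul, ← mul_pow]
    exact Nat.pow_le_pow_left (two_mul_pow_le p) k
  have h2 : (p + 1) ^ ((p + 1) * k) ≤ (p + 1) ^ ((p + 1) * k) * x :=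
    Nat.le_mul_of_pos_right _ (by omega)
  rcases Nat.eq_zero_or_pos (p ^ ((p + 1) * k)) with h0 | h0
  · rw [h0] at h
    have : 0 < (p + 1) ^ ((p + 1) * k) := by positivity
    omega
  · have : p ^ ((p + 1) * k) * M < p ^ ((p + 1) * k) * 2 ^ k := Nat.mul_lt_mul_of_pos_left hM h0
    rw [mul_comm] at h1
    omega

variable {g : Gl} {μ : ℕ → ℕ} {ins : List ℕ → ℕ} {Exp : List ℕ → Prop} {p K C Cs : ℕ}
  {V : List ℕ} {step : List ℕ → R FU}

/-- the invariant after `j` levels -/
structure LInv (μ : ℕ → ℕ) (ins : List ℕ → ℕ) (Exp : List ℕ → Prop) (p K C : ℕ) (V : List ℕ)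
    (j : ℕ) (s : FU) : Prop where
  perm : (s.1.flatten ++ s.2.flatten).Perm V
  exp : ∀ A ∈ s.1, Exp A
  small : ∀ Y ∈ s.2, Y ≠ [] ∧ (p + 1) ^ j * ms μ Y ≤ p ^ j * ms μ V
  cut : K * ins V ≤ K * ((s.1.map ins).sum + (s.2.map ins).sum) + C * j * ms μ V

theorem sp_level (hV : V.Nodup) (hμ : ∀ v ∈ V, 1 ≤ μ v)
    (hstep : ∀ X : List ℕ, X.Nodup → X ⊆ V → X ≠ [] →
      Sp g (step X) fun o t => StepOK μ ins Exp (p + 1) K C X o ∧ t ≤ Cs * ms μ X)
    {j : ℕ} {s : FU} (h : LInv μ ins Exp p K C V j s) :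
    Sp g (level step s) fun s' t =>
      LInv μ ins Exp p K C V (j + 1) s' ∧ t ≤ (Cs + 5) * ms μ V + 1 := by
  have hsub : ∀ X ∈ s.2, X.Nodup ∧ X ⊆ V := by
    intro X hX
    have h1 : X.Sublist (s.1.flatten ++ s.2.flatten) :=
      (List.sublist_flatten_of_mem hX).trans (List.sublist_append_right _ _)
    exact ⟨(h.perm.nodup_iff.2 hV).sublist h1, fun v hv => h.perm.subset (h1.subset hv)⟩
  have hms : (s.2.map (ms μ)).sum ≤ ms μ V := by
    rw [← ms_perm μ h.perm, ms_append, ms_flatten μ s.2]; omega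
  unfold level
  refine (sp_foldL' (fun rest (t : FU) => (∀ X ∈ rest, X ∈ s.2) ∧
      (t.1.flatten ++ t.2.flatten ++ rest.flatten).Perm V ∧ (∀ A ∈ t.1, Exp A) ∧
      (∀ Y ∈ t.2, Y ≠ [] ∧ (p + 1) ^ (j + 1) * ms μ Y ≤ p ^ (j + 1) * ms μ V) ∧
      K * ins V + C * (rest.map (ms μ)).sum ≤
        K * ((t.1.map ins).sum + (t.2.map ins).sum + (rest.map ins).sum) + C * (j + 1) * ms μ V)
    (fun X => Cs * ms μ X + 4) ?_ ?_).mono ?_
  · rintro X rest t ⟨a1, a2, a3, a4, a5⟩
    have hX := a1 X (by simp)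
    unfold piece
    refine (hstep X (hsub X hX).1 (hsub X hX).2 (h.small X hX).1).bind ?_
    rintro o u ⟨ho, hu⟩
    refine (sp_revAppL _ _).bind ?_
    rintro F u1 ⟨rfl, h1⟩
    refine (sp_revAppL _ _).bind ?_
    rintro U u2 ⟨rfl, h2⟩
    have hl := ho.len
    refine ⟨⟨fun Y hY => a1 Y (by simp [hY]), ?_, ?_, ?_, ?_⟩, by omega⟩
    · refine List.Perm.trans ?_ a2
      have e1 : (o.1.reverse ++ t.1).flatten.Perm (o.1.flatten ++ t.1.flatten) := by
        rw [List.flatten_append]; exact (o.1.reverse_perm.flatten).append_right _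
      have e2 : (o.2.reverse ++ t.2).flatten.Perm (o.2.flatten ++ t.2.flatten) := by
        rw [List.flatten_append]; exact (o.2.reverse_perm.flatten).append_right _
      refine ((e1.append e2).append_right _).trans ?_
      rw [List.flatten_cons, List.perm_iff_count]
      intro v
      have := ho.perm.count_eq v
      simp only [List.count_append] at this ⊢
      omega
    · intro A hA
      rcases List.mem_append.1 hA with hA | hA
      · exact ho.exp A (List.mem_reverse.1 hA)
      · exact a3 A hA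
    · intro Y hY
      rcases List.mem_append.1 hY with hY | hY
      · obtain ⟨b1, b2⟩ := ho.small Y (List.mem_reverse.1 hY)
        refine ⟨b1, ?_⟩
        have b3 : (p + 1) * ms μ Y ≤ p * ms μ X := by rw [add_mul] at b2 ⊢; nlinarith
        calc (p + 1) ^ (j + 1) * ms μ Y = (p + 1) ^ j * ((p + 1) * ms μ Y) := by ring
          _ ≤ (p + 1) ^ j * (p * ms μ X) := Nat.mul_le_mul_left _ b3
          _ = p * ((p + 1) ^ j * ms μ X) := by ring
          _ ≤ p * (p ^ j * ms μ V) := Nat.mul_le_mul_left _ (h.small X hX).2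
          _ = _ := by ring
      · exact a4 Y hY
    · have := ho.cut
      simp only [List.map_append, List.sum_append, List.map_reverse, List.sum_reverse,
        List.map_cons, List.sum_cons, mul_add] at this a5 ⊢
      omega
  · refine ⟨fun X hX => hX, by simpa using h.perm, h.exp, by simp, ?_⟩
    have := h.cut
    have h2 := Nat.mul_le_mul_left C hms
    simp only [List.map_nil, List.sum_nil, add_zero, mul_add, add_mul, mul_one] at this ⊢
    omega
  · rintro t u ⟨⟨-, a2, a3, a4, a5⟩, hu⟩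
    refine ⟨⟨by simpa using a2, a3, a4, by simpa using a5⟩, hu.trans ?_⟩
    have : (s.2.map fun X => Cs * ms μ X + 4 + 1).sum ≤ (s.2.map fun X => (Cs + 5) * ms μ X).sum := by
      refine List.sum_le_sum fun X hX => ?_
      have h1 := length_le_ms fun v hv => hμ v ((hsub X hX).2 hv)
      have h2 : 0 < X.length := List.length_pos_iff.2 (h.small X hX).1
      rw [add_mul]; omega
    rw [List.sum_map_mul_left] at this
    have := Nat.mul_le_mul_left (Cs + 5) hms
    omega

/-- **the recursion**: after `(p + 1) * k` levels every vertex lies in a finished cluster. -/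
theorem sp_levels (hV : V.Nodup) (hμ : ∀ v ∈ V, 1 ≤ μ v) {k : ℕ} (hk : ms μ V < 2 ^ k)
    (hstep : ∀ X : List ℕ, X.Nodup → X ⊆ V → X ≠ [] →
      Sp g (step X) fun o t => StepOK μ ins Exp (p + 1) K C X o ∧ t ≤ Cs * ms μ X)
    (hins : ins [] = 0) :
    Sp g (levels step ((p + 1) * k) V) fun F t => F.flatten.Perm V ∧ (∀ A ∈ F, Exp A) ∧
      K * ins V ≤ K * (F.map ins).sum + C * ((p + 1) * k) * ms μ V ∧
      t ≤ (p + 1) * k * ((Cs + 5) * ms μ V + 2) + 1 := by
  unfold levels
  refine Sp.bind (sp_forN' (fun j s => LInv μ ins Exp p K C V j s) ((Cs + 5) * ms μ V + 1)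
    (fun j s _ _ h => sp_level hV hμ hstep h) ?_) ?_
  · cases V with
    | nil => exact ⟨by simp, by simp, by simp, by simp [hins]⟩
    | cons v V => exact ⟨by simp, by simp, by simp, by simp⟩
  · rintro s t ⟨h, ht⟩
    rw [zero_add] at h
    have hU : s.2 = [] := by
      rcases e : s.2 with _ | ⟨Y, U⟩
      · rfl
      · have hY : Y ∈ s.2 := by rw [e]; simp
        obtain ⟨b1, b2⟩ := h.small Y hY
        have b3 := eq_zero_of_decay hk b2
        have h1 : Y.Sublist (s.1.flatten ++ s.2.flatten) :=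
          (List.sublist_flatten_of_mem hY).trans (List.sublist_append_right _ _)
        have b4 := length_le_ms fun v hv => hμ v (h.perm.subset (h1.subset hv))
        have b5 : 0 < Y.length := List.length_pos_iff.2 b1
        omega
    have h1 := h.perm
    have h2 := h.cut
    rw [hU] at h1 h2
    exact ⟨by simpa using h1, h.exp, by simpa using h2, by simpa using ht⟩

end Crest.Agent.N325.Sd
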