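import Crest.Agent.N325.Sd.Trim

/-! Static expander decomposition: the subgraph induced on a piece. -/

set_option autoImplicit false

namespace Crest.Agent.N325.Sd

open Finset Crest.Agent.N325.Lf

/-- the weights of `G` restricted to the edges with both ends marked -/
def wIn (G : Net) (m : ℕ → Bool) (e : ℕ) : ℕ := if m (G.src e) && m (G.dst e) then G.cap e else 0

/-- the induced net with capacities scaled by `κ` -/
def sub (G : Net) (m : ℕ → Bool) (κ : ℕ) (a b : ℕ → ℕ) (h : ℕ) : Net :=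
  ⟨G.adj, G.src, G.dst, fun e => κ * wIn G m e, a, b, h⟩

/-- the edges inside `A` -/
def eIn (G : Net) (E A : Finset ℕ) : Finset ℕ := E.filter fun e => G.src e ∈ A ∧ G.dst e ∈ A

variable {G : Net} {V E A : Finset ℕ} {m : ℕ → Bool} {κ h : ℕ} {a b : ℕ → ℕ}

theorem wIn_le (e : ℕ) : wIn G m e ≤ G.cap e := by unfold wIn; split_ifs <;> omega

theorem wIn_eq (hm : ∀ v, m v = true ↔ v ∈ A) {e : ℕ} (he : e ∈ eIn G E A) : wIn G m e = G.cap e := by
  obtain ⟨-, h1, h2⟩ := mem_filter.1 he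
  simp [wIn, (hm _).2 h1, (hm _).2 h2]

theorem sub_WF (hG : G.WF V E) (hA : A ⊆ V) (hm : ∀ v, m v = true ↔ v ∈ A) :
    (sub G m κ a b h).WF A (eIn G E A) where
  src_mem e he := (mem_filter.1 he).2.1
  dst_mem e he := (mem_filter.1 he).2.2
  live v hv e he hc := by
    have h1 : 0 < wIn G m e := Nat.pos_of_mul_pos_left hc
    have h2 := hG.live v (hA hv) e he (h1.trans_le (wIn_le e))
    refine mem_filter.2 ⟨h2, ?_⟩
    unfold wIn at h1
    split_ifs at h1 with h3
    · simpa only [Bool.and_eq_true, hm] using h3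
    · omega
  full e he hc := hG.full e (mem_filter.1 he).1
    ((Nat.pos_of_mul_pos_left hc : 0 < wIn G m e).trans_le (wIn_le e))
  nodup v hv := hG.nodup v (hA hv)

theorem crs_sub (hm : ∀ v, m v = true ↔ v ∈ A) {S T : Finset ℕ} (hS : S ⊆ A) (hT : T ⊆ A) :
    (sub G m κ a b h).crs (eIn G E A) (wIn G m) S T = G.crs E G.cap S T := by
  rw [crs_congr fun e he => wIn_eq hm he]
  unfold Net.crs eIn
  rw [sum_filter]
  refine sum_congr rfl fun e _ => ?_
  by_cases h1 : (G.src e ∈ S ∧ G.dst e ∈ T) ∨ (G.src e ∈ T ∧ G.dst e ∈ S)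
  · have h2 : G.src e ∈ A ∧ G.dst e ∈ A := by
      rcases h1 with h1 | h1
      · exact ⟨hS h1.1, hT h1.2⟩
      · exact ⟨hT h1.1, hS h1.2⟩
    rw [if_pos h2]; rfl
  · have : ¬(((sub G m κ a b h).src e ∈ S ∧ (sub G m κ a b h).dst e ∈ T) ∨
        ((sub G m κ a b h).src e ∈ T ∧ (sub G m κ a b h).dst e ∈ S)) := h1
    rw [if_neg this, if_neg h1, ite_self]

theorem crs_sub_cap (hm : ∀ v, m v = true ↔ v ∈ A) {S T : Finset ℕ} (hS : S ⊆ A) (hT : T ⊆ A) :
    (sub G m κ a b h).crs (eIn G E A) (sub G m κ a b h).cap S T = κ * G.crs E G.cap S T := by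
  rw [← crs_sub (G := G) (E := E) (κ := κ) (a := a) (b := b) (h := h) hm hS hT]
  exact crs_mul κ _ _ _

theorem wdeg_sub (v : ℕ) :
    (sub G m κ a b h).wdeg (eIn G E A) (wIn G m) v ≤ G.wdeg E G.cap v := by
  unfold Net.wdeg
  refine le_trans (sum_le_sum fun e _ => ?_) (sum_le_sum_of_subset (filter_subset _ E))
  change (if G.src e = v ∨ G.dst e = v then wIn G m e else 0) ≤ _
  split_ifs
  · exact wIn_le e
  · exact le_rfl

theorem cvol_sub (v : ℕ) : (sub G m κ a b h).cvol (eIn G E A) v ≤ κ * G.wdeg E G.cap v := by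
  refine le_trans (le_of_eq ?_) (Nat.mul_le_mul_left κ (wdeg_sub (m := m) (κ := κ) (a := a) (b := b)
    (h := h) (A := A) v))
  unfold Net.cvol Net.wdeg
  rw [mul_sum]
  refine sum_congr rfl fun e _ => ?_
  split_ifs <;> rfl

/-- the input graph: `G.cap` are the weights, `μ` dominates weighted degrees and list lengths -/
structure Graph (G : Net) (V : List ℕ) (E : Finset ℕ) (μ : ℕ → ℕ) : Prop where
  nodup : V.Nodup
  wf : G.WF V.toFinset E
  pos : ∀ v ∈ V, 1 ≤ μ v
  deg : ∀ v ∈ V, G.wdeg E G.cap v ≤ μ v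
  len : ∀ v ∈ V, (G.adj v).length ≤ μ v

end Crest.Agent.N325.Sd
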