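import Crest.Agent.N325.Sd.Piece
import Crest.Agent.N325.M3.Cert

/-! Static expander decomposition, layer 3: one piece, from an abstract cut-or-certify call and an
abstract trimming call; the whole decomposition. -/

set_option autoImplicit false

namespace Crest.Agent.N325.Sd

open Finset Crest.Agent.N325.Lf

/-- what the cut-matching game delivers on the piece `X` -/
def FOK (N : Net) (E : Finset ℕ) (w μ : ℕ → ℕ) (q K C c : ℕ) (X : List ℕ) :
    List ℕ ⊕ List ℕ → Prop
  | .inl S => S.Nodup ∧ S ⊆ X ∧ K * N.crs E w S.toFinset (X.toFinset \ S.toFinset) ≤ C * ms μ X ∧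
      ms μ X ≤ q * ms μ S ∧ q * ms μ S + ms μ X ≤ q * ms μ X
  | .inr fk => 16 * fk.length ≤ ms μ X ∧ (∀ v ∈ fk, v ∈ X) ∧
      ∀ U ⊆ X.toFinset, 2 * ∑ v ∈ U, μ v ≤ ms μ X → ∑ v ∈ U, μ v ≤
        c * N.crs E w U (X.toFinset \ U) + 2 * fk.countP fun v => decide (v ∈ U)

/-- the elements of `X` outside `S` -/
def diffL (X S : List ℕ) : R (List ℕ) := do
  let m ← setAllP (fun _ => true) S (Arr.cst false)
  filterP (fun v => !m.get v) X

/-- add `f x` at the place `key x`, for all `x` of the list -/
def accL {α : Type} (key f : α → ℕ) (l : List α) : R (Arr ℕ) :=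
  foldL (fun x (d : Arr ℕ) => do
    let y ← nat (d.get (key x) + f x)
    pure (d.set (key x) y)) l (Arr.cst 0)

/-- the two outcomes -/
def stepCut (X S : List ℕ) : R FU := do
  let Y ← diffL X S
  pure ([], [S, Y])

def stepCert (trim : ℕ → List ℕ → Arr ℕ → R (List ℕ × List ℕ × Arr ℕ)) (L c : ℕ) (X fk : List ℕ) :
    R FU := do
  let d ← accL (fun v => v) (fun _ => 2) fk
  let o ← trims trim L c X d
  pure ([o.1], List.casesOn o.2 [] fun _ _ => [o.2])

/-- one piece -/
def stepP (frsh : List ℕ → R (List ℕ ⊕ List ℕ))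
    (trim : ℕ → List ℕ → Arr ℕ → R (List ℕ × List ℕ × Arr ℕ)) (L c : ℕ) (X : List ℕ) : R FU := do
  let o ← frsh X
  Sum.casesOn (motive := fun _ => R FU) o (fun S => stepCut X S) fun fk => stepCert trim L c X fk

variable {g : Gl} {N : Net} {E : Finset ℕ} {w μ : ℕ → ℕ}

theorem sp_diffL {X S : List ℕ} (hX : X.Nodup) (hS : S.Nodup) (h : S ⊆ X) :
    Sp g (diffL X S) fun Y t => (Y ++ S).Perm X ∧ t ≤ 3 * X.length + 3 := by
  unfold diffL
  refine (sp_setAllP _ _ _).bind ?_
  rintro m t ⟨hm, rfl⟩
  refine (sp_filterP _ _).mono ?_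
  rintro Y u ⟨rfl, hu⟩
  have hl : S.length ≤ X.length := (hS.subperm h).length_le
  refine ⟨?_, by omega⟩
  refine List.Perm.trans ?_ (List.filter_append_perm (fun v => !m.get v) X)
  refine List.Perm.append_left _ ?_
  rw [List.perm_ext_iff_of_nodup hS (hX.filter _)]
  intro v
  simp only [List.mem_filter, hm, Arr.get_cst]
  by_cases hv : v ∈ S
  · simp [hv, h hv]
  · simp [hv]

theorem sp_accL {α : Type} (key f : α → ℕ) (l : List α) (hX : (l.map f).sum ≤ g.X) :
    Sp g (accL key f l) fun d t =>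
      (∀ v, d.get v = ((l.filter fun x => key x = v).map f).sum) ∧ t ≤ l.length + 1 := by
  unfold accL
  refine (sp_foldL' (fun rest (d : Arr ℕ) => ∃ l0, l0 ++ rest = l ∧
    ∀ v, d.get v = ((l0.filter fun x => key x = v).map f).sum) (fun _ => 0) ?_
    ⟨[], rfl, fun v => rfl⟩).mono ?_
  · rintro x rest d ⟨l0, e, h⟩
    rw [sp_bind, sp_nat]
    refine ⟨?_, ⟨l0 ++ [x], by simpa using e, fun v => ?_⟩, le_rfl⟩
    · refine le_trans ?_ hX
      have : ((l0.filter fun y => key y = key x).map f).sum ≤ (l0.map f).sum :=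
        (List.filter_sublist.map f).sum_le_sum fun _ _ => Nat.zero_le _
      rw [h, ← e]
      simp only [List.map_append, List.map_cons, List.sum_append, List.sum_cons]
      omega
    · rw [Arr.get_set, List.filter_append]
      split_ifs with e'
      · subst e'; simp [h]
      · simp [h, Ne.symm e']
  · rintro d t ⟨⟨l0, e, h⟩, ht⟩
    rw [List.append_nil] at e
    subst e
    exact ⟨h, by simpa using ht⟩

/-- sums of an accumulated array over a set -/
theorem sum_acc {α : Type} (key f : α → ℕ) (l : List α) (T : Finset ℕ) :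
    ∑ v ∈ T, ((l.filter fun x => key x = v).map f).sum =
      ((l.filter fun x => key x ∈ T).map f).sum := by
  induction l with
  | nil => simp
  | cons x l ih =>
    have e : ∀ v, (((x :: l).filter fun y => key y = v).map f).sum =
        (if key x = v then f x else 0) + ((l.filter fun y => key y = v).map f).sum := by
      intro v; by_cases h : key x = v <;> simp [h]
    simp only [e, sum_add_distrib, ih, sum_ite_eq]
    by_cases h : key x ∈ T <;> simp [h]

theorem sp_stepP {frsh : List ℕ → R (List ℕ ⊕ List ℕ)}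
    {trim : ℕ → List ℕ → Arr ℕ → R (List ℕ × List ℕ × Arr ℕ)} {b L q K C c Cf Ct : ℕ} {X : List ℕ}
    (hX : X.Nodup) (hne : X ≠ []) (hμ : ∀ v ∈ X, 1 ≤ μ v) (hb : 2 ≤ b) (hq : 2 ≤ q) (hC : 1 ≤ C)
    (hK : K ≤ c) (hg : 4 ^ L * c ≤ g.X) (hgX : ms μ X ≤ g.X) (hL : ms μ X < b ^ L)
    (hf : Sp g (frsh X) fun o t => FOK N E w μ q K C c X o ∧ t ≤ Cf * ms μ X)
    (htrim : ∀ j < L, ∀ (A : List ℕ) (d : Arr ℕ), A.Nodup → A ⊆ X → ms d.get A ≤ ms μ X →
      Sp g (trim (4 ^ j * c) A d) fun o t =>
        TrimOK N E w μ b (4 ^ j * c) A d.get o.1 o.2.1 o.2.2.get ∧ t ≤ Ct * ms μ X) :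
    Sp g (stepP frsh trim L c X) fun o t =>
      StepOK μ (ins N E w) (Exp N E w μ (4 ^ L * c)) q K C X o ∧
      t ≤ (Cf + L * (Ct + 3) + 6) * ms μ X := by
  have hlen := length_le_ms hμ
  have hpos : 0 < X.length := List.length_pos_iff.2 hne
  unfold stepP
  refine hf.bind ?_
  rintro (S | fk) t ⟨ho, ht⟩
  · obtain ⟨h1, h2, h3, h4, h5⟩ := ho
    change Sp g (stepCut X S) _
    unfold stepCut
    refine (sp_diffL hX h1 h2).bind ?_
    rintro Y u ⟨hY, hu⟩
    have e := ms_perm μ hY
    rw [ms_append] at e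
    refine ⟨⟨by simpa using List.perm_append_comm.trans hY, by simp, ?_, by simp, ?_⟩, ?_⟩
    · intro Z hZ
      simp only [List.mem_cons, List.not_mem_nil, or_false] at hZ
      rcases hZ with rfl | rfl
      · refine ⟨?_, h5⟩
        rintro rfl
        simp only [ms_nil, mul_zero] at h4; omega
      · refine ⟨?_, by have := congrArg (q * ·) e; simp only [mul_add] at this; omega⟩
        rintro rfl
        simp only [ms_nil, zero_add] at e
        rw [e] at h5; omega
    · rw [sdiff_of_perm hY hX, crs_comm] at h3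
      rw [ins_perm hY hX]
      simp only [List.map_nil, List.sum_nil, List.map_cons, List.sum_cons, mul_add]
      omega
    · simp only [add_mul]; omega
  · obtain ⟨h1, h2, h3⟩ := ho
    change Sp g (stepCert trim L c X fk) _
    unfold stepCert
    refine (sp_accL _ _ fk (by simp; omega)).bind ?_
    rintro d u ⟨hd, hu⟩
    have hsum : ∀ T : Finset ℕ, ∑ v ∈ T, d.get v = 2 * fk.countP fun v => decide (v ∈ T) := by
      intro T
      simp only [hd]
      rw [sum_acc (fun v => v) (fun _ => 2) fk T, List.countP_eq_length_filter]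
      simp [mul_comm]
    have hdX : ms d.get X ≤ 2 * fk.length := by
      rw [ms_eq_sum _ hX, hsum]; exact Nat.mul_le_mul_left _ List.countP_le_length
    refine (sp_trims (Ct := Ct * ms μ X) hX hb hg hμ (by omega)
      (fun T hT h => by rw [hsum]; exact h3 T hT h)
      fun j hj A d' a1 a2 a3 => htrim j hj A d' a1 a2 (by omega)).bind ?_
    rintro ⟨A, P⟩ u' ⟨b1, b2, b3, b4, b5⟩
    dsimp only at b1 b2 b3 b4
    have hcut : K * ins N E w X ≤ K * (ins N E w A + ins N E w P) + C * ms μ X := by
      have h6 : ms μ X ≤ C * ms μ X := Nat.le_mul_of_pos_left _ hC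
      rcases le_total (ins N E w X) (ins N E w A + ins N E w P) with h | h
      · exact (Nat.mul_le_mul_left K h).trans (Nat.le_add_right _ _)
      · obtain ⟨x, hx⟩ := Nat.exists_eq_add_of_le h
        have := Nat.mul_le_mul_right x hK
        rw [hx, mul_add] at b4 ⊢
        omega
    have hcost : t + (u + u') ≤ (Cf + L * (Ct + 3) + 6) * ms μ X := by
      have : L * (Ct * ms μ X + ms μ X + 2) ≤ L * (Ct + 3) * ms μ X := by
        rw [mul_assoc]; refine Nat.mul_le_mul_left _ ?_
        rw [add_mul]; omega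
      simp only [add_mul]; omega
    cases P with
    | nil => exact ⟨⟨by simpa using b1, by simpa using b2, by simp, by simp, by simpa using hcut⟩,
        by simpa using hcost⟩
    | cons v P =>
      refine ⟨⟨by simpa using b1, by simpa using b2, ?_, by simp, by simpa using hcut⟩,
        by simpa using hcost⟩
      intro Z hZ
      simp only [List.mem_cons, List.not_mem_nil, or_false] at hZ
      subst hZ
      refine ⟨by simp, ?_⟩
      have : 2 * ms μ (v :: P) ≤ ms μ X := by omega
      nlinarith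

end Crest.Agent.N325.Sd
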