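import Crest.Agent.N325.Sd.Levels
import Crest.Agent.N325.Lf.Cut0

/-! Static expander decomposition, layer 2: certificates with deficits and the trimming loop. -/

set_option autoImplicit false

namespace Crest.Agent.N325.Sd

open Finset Crest.Agent.N325.Lf

/-- `w`-weight of the edges with both ends in `A` -/
def insF (N : Net) (E : Finset ℕ) (w : ℕ → ℕ) (A : Finset ℕ) : ℕ :=
  ∑ e ∈ E, if N.src e ∈ A ∧ N.dst e ∈ A then w e else 0

/-- the same for a list -/
def ins (N : Net) (E : Finset ℕ) (w : ℕ → ℕ) (A : List ℕ) : ℕ := insF N E w A.toFinset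

variable {N : Net} {E : Finset ℕ} {w μ : ℕ → ℕ}

@[simp] theorem ins_nil : ins N E w [] = 0 := by simp [ins, insF]

theorem insF_union {A B : Finset ℕ} (h : Disjoint A B) :
    insF N E w (A ∪ B) = insF N E w A + insF N E w B + N.crs E w A B := by
  unfold insF Net.crs
  rw [← sum_add_distrib, ← sum_add_distrib]
  refine sum_congr rfl fun e _ => ?_
  have h1 := @disjoint_left.1 h (N.src e)
  have h2 := @disjoint_left.1 h (N.dst e)
  simp only [mem_union]
  by_cases a1 : N.src e ∈ A <;> by_cases a2 : N.dst e ∈ A <;> by_cases a3 : N.src e ∈ B <;>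
    by_cases a4 : N.dst e ∈ B <;> simp_all

theorem crs_union_right {A B C : Finset ℕ} (h : Disjoint B C) (hB : Disjoint A B)
    (hC : Disjoint A C) : N.crs E w A (B ∪ C) = N.crs E w A B + N.crs E w A C := by
  unfold Net.crs
  rw [← sum_add_distrib]
  refine sum_congr rfl fun e _ => ?_
  have h1 := @disjoint_left.1 h (N.src e)
  have h2 := @disjoint_left.1 h (N.dst e)
  have h3 := @disjoint_left.1 hB (N.src e)
  have h4 := @disjoint_left.1 hB (N.dst e)
  have h5 := @disjoint_left.1 hC (N.src e)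
  have h6 := @disjoint_left.1 hC (N.dst e)
  simp only [mem_union]
  by_cases a1 : N.src e ∈ A <;> by_cases a2 : N.dst e ∈ A <;> by_cases a3 : N.src e ∈ B <;>
    by_cases a4 : N.dst e ∈ B <;> by_cases a5 : N.src e ∈ C <;> by_cases a6 : N.dst e ∈ C <;>
    simp_all

theorem disjoint_of_nodup {A B : List ℕ} (h : (A ++ B).Nodup) : Disjoint A.toFinset B.toFinset :=
  List.disjoint_toFinset_iff_disjoint.2 (List.nodup_append'.1 h).2.2

theorem ins_perm {A B X : List ℕ} (h : (A ++ B).Perm X) (hX : X.Nodup) :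
    ins N E w X = ins N E w A + ins N E w B + N.crs E w A.toFinset B.toFinset := by
  unfold ins
  rw [← List.toFinset_eq_of_perm _ _ h, List.toFinset_append,
    insF_union (disjoint_of_nodup (h.nodup_iff.2 hX))]

theorem sdiff_of_perm {A B X : List ℕ} (h : (A ++ B).Perm X) (hX : X.Nodup) :
    X.toFinset \ B.toFinset = A.toFinset := by
  rw [← List.toFinset_eq_of_perm _ _ h, List.toFinset_append,
    union_sdiff_cancel_right (disjoint_of_nodup (h.nodup_iff.2 hX))]

/-- expansion certificate with deficits `d` -/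
def Cert (N : Net) (E : Finset ℕ) (w μ : ℕ → ℕ) (A : Finset ℕ) (c : ℕ) (d : ℕ → ℕ) (N0 : ℕ) : Prop :=
  ∀ T ⊆ A, 2 * ∑ v ∈ T, μ v ≤ N0 → ∑ v ∈ T, μ v ≤ c * N.crs E w T (A \ T) + ∑ v ∈ T, d v

/-- a `1/c`-expander with respect to the measure `μ` -/
def Exp (N : Net) (E : Finset ℕ) (w μ : ℕ → ℕ) (c : ℕ) (A : List ℕ) : Prop :=
  ∀ T ⊆ A.toFinset, 2 * ∑ v ∈ T, μ v ≤ ms μ A → ∑ v ∈ T, μ v ≤ c * N.crs E w T (A.toFinset \ T)

/-- what one trimming flow delivers: the rest `A'`, the removed part `P`, new deficits `l` -/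
structure TrimOK (N : Net) (E : Finset ℕ) (w μ : ℕ → ℕ) (b c : ℕ) (A : List ℕ) (d : ℕ → ℕ)
    (A' P : List ℕ) (l : ℕ → ℕ) : Prop where
  perm : (A' ++ P).Perm A
  route : ∀ T ⊆ A'.toFinset, 2 * ∑ v ∈ T, d v + 2 * c * N.crs E w T P.toFinset ≤
    2 * c * N.crs E w T (A'.toFinset \ T) + ∑ v ∈ T, μ v + ∑ v ∈ T, l v
  small : ms μ P ≤ 2 * ms d A
  left : b * ms l A' ≤ ms d A
  cut : 2 * c * N.crs E w A'.toFinset P.toFinset ≤ 3 * ms d A

/-- (S1) trimming keeps the certificate -/
theorem Cert.trim {b c N0 : ℕ} {A A' P : List ℕ} {d l : ℕ → ℕ} (hA : A.Nodup)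
    (h : Cert N E w μ A.toFinset c d N0) (t : TrimOK N E w μ b c A d A' P l) :
    Cert N E w μ A'.toFinset (4 * c) l N0 := by
  intro T hT h2
  have hd := disjoint_of_nodup (t.perm.nodup_iff.2 hA)
  have e : A.toFinset = A'.toFinset ∪ P.toFinset := by
    rw [← List.toFinset_eq_of_perm _ _ t.perm, List.toFinset_append]
  have h1 := h T (e ▸ hT.trans subset_union_left) h2
  have e2 : A.toFinset \ T = (A'.toFinset \ T) ∪ P.toFinset := by
    rw [e, union_sdiff_distrib, sdiff_eq_self_of_disjoint (hd.mono_left hT).symm]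
  rw [e2, crs_union_right (hd.mono_left sdiff_subset) disjoint_sdiff (hd.mono_left hT)] at h1
  have h3 := t.route T hT
  nlinarith

/-- state of the trimming loop: constant, rest, removed vertices, deficits -/
abbrev TS := ℕ × List ℕ × List ℕ × Arr ℕ

/-- one trimming round -/
def trimRound (trim : ℕ → List ℕ → Arr ℕ → R (List ℕ × List ℕ × Arr ℕ)) (s : TS) : R TS := do
  let o ← trim s.1 s.2.1 s.2.2.2
  let P ← revAppL o.2.1 s.2.2.1
  let c ← nat (4 * s.1)
  pure (c, o.1, P, o.2.2)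

/-- `L` trimming rounds; the result is (cluster, removed part) -/
def trims (trim : ℕ → List ℕ → Arr ℕ → R (List ℕ × List ℕ × Arr ℕ)) (L c : ℕ) (X : List ℕ)
    (d : Arr ℕ) : R (List ℕ × List ℕ) := do
  let s ← forN (fun _ s => trimRound trim s) L 0 (c, X, [], d)
  pure (s.2.1, s.2.2.1)

variable {g : Gl}

theorem sp_trims {trim : ℕ → List ℕ → Arr ℕ → R (List ℕ × List ℕ × Arr ℕ)} {b L c Ct : ℕ}
    {X : List ℕ} {d : Arr ℕ} (hX : X.Nodup) (hb : 2 ≤ b) (hg : 4 ^ L * c ≤ g.X)
    (hμ : ∀ v ∈ X, 1 ≤ μ v) (hd : ms d.get X < b ^ L)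
    (hc : Cert N E w μ X.toFinset c d.get (ms μ X))
    (htrim : ∀ j < L, ∀ (A : List ℕ) (d' : Arr ℕ), A.Nodup → A ⊆ X → ms d'.get A ≤ ms d.get X →
      Sp g (trim (4 ^ j * c) A d') fun o t =>
        TrimOK N E w μ b (4 ^ j * c) A d'.get o.1 o.2.1 o.2.2.get ∧ t ≤ Ct) :
    Sp g (trims trim L c X d) fun o t => (o.1 ++ o.2).Perm X ∧ Exp N E w μ (4 ^ L * c) o.1 ∧
      ms μ o.2 ≤ 4 * ms d.get X ∧
      c * ins N E w X ≤ c * (ins N E w o.1 + ins N E w o.2) + 3 * ms d.get X ∧
      t ≤ L * (Ct + ms μ X + 2) + 1 := by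
  unfold trims
  refine Sp.bind (sp_forN' (fun j (s : TS) => s.1 = 4 ^ j * c ∧ (s.2.1 ++ s.2.2.1).Perm X ∧
      Cert N E w μ s.2.1.toFinset (4 ^ j * c) s.2.2.2.get (ms μ X) ∧
      b ^ j * ms s.2.2.2.get s.2.1 ≤ ms d.get X ∧
      ms μ s.2.2.1 + 4 * ms s.2.2.2.get s.2.1 ≤ 4 * ms d.get X ∧
      c * ins N E w X + 3 * ms s.2.2.2.get s.2.1 ≤
        c * (ins N E w s.2.1 + ins N E w s.2.2.1) + 3 * ms d.get X)
    (Ct + ms μ X + 1) ?_ ?_) ?_
  · rintro j ⟨c', A, P, d'⟩ - hj ⟨a1, a2, a3, a4, a5, a6⟩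
    dsimp only at a1 a2 a3 a4 a5 a6
    subst a1
    have hnd := a2.nodup_iff.2 hX
    have hA : A.Nodup := hnd.sublist (List.sublist_append_left _ _)
    have hAX : A ⊆ X := fun v hv => a2.subset (List.mem_append_left _ hv)
    have hbj : 1 ≤ b ^ j := Nat.one_le_pow _ _ (by omega)
    unfold trimRound
    refine (htrim j (by omega) A d' hA hAX (by nlinarith)).bind ?_
    rintro ⟨A', Q, l⟩ u ⟨ho, hu⟩
    dsimp only at ho
    refine (sp_revAppL _ _).bind ?_
    rintro P' u1 ⟨rfl, h1⟩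
    dsimp only at h1
    rw [sp_bind, sp_nat]
    have hp : (A' ++ (Q.reverse ++ P)).Perm X := by
      refine List.Perm.trans ?_ a2
      rw [← List.append_assoc]
      exact (((List.reverse_perm Q).append_left A').trans ho.perm).append_right P
    have hl := ho.left
    have hl2 : 2 * ms l.get A' ≤ ms d'.get A := le_trans (Nat.mul_le_mul_right _ hb) hl
    have hQ : Q.length ≤ ms μ X := by
      have h1 : ∀ v ∈ Q, 1 ≤ μ v := fun v hv =>
        hμ v (hAX (ho.perm.subset (List.mem_append_right _ hv)))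
      have h2 := length_le_ms h1
      have h3 := ms_perm μ ho.perm
      have h4 := ms_perm μ a2
      simp only [ms_append] at h3 h4
      omega
    refine ⟨?_, ⟨by ring, hp, ?_, ?_, ?_, ?_⟩, by omega⟩
    · refine le_trans ?_ hg
      rw [← mul_assoc, ← pow_succ']
      exact Nat.mul_le_mul_right _ (Nat.pow_le_pow_right (by norm_num) (by omega))
    · have := a3.trim hA ho
      rwa [← mul_assoc, ← pow_succ'] at this
    · dsimp only
      calc b ^ (j + 1) * ms l.get A' = b ^ j * (b * ms l.get A') := by ring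
        _ ≤ b ^ j * ms d'.get A := Nat.mul_le_mul_left _ hl
        _ ≤ _ := a4
    · have := ho.small
      have e := ms_perm μ (List.reverse_perm Q)
      simp only [ms_append]
      omega
    · dsimp only
      have e1 := ins_perm (N := N) (E := E) (w := w) ho.perm hA
      have hnd' : (Q.reverse ++ P).Nodup := (hp.nodup_iff.2 hX).sublist (List.sublist_append_right _ _)
      have e2 := ins_perm (N := N) (E := E) (w := w) (List.Perm.refl (Q.reverse ++ P)) hnd'
      have e3 : ins N E w Q.reverse = ins N E w Q := by simp [ins]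
      have h4 : 1 ≤ 4 ^ j := Nat.one_le_pow _ _ (by norm_num)
      have h5 := ho.cut
      have h6 : c * N.crs E w A'.toFinset Q.toFinset ≤ 4 ^ j * c * N.crs E w A'.toFinset Q.toFinset :=
        Nat.mul_le_mul_right _ (Nat.le_mul_of_pos_left _ h4)
      rw [e1] at a6
      rw [e2, e3]
      simp only [mul_add, mul_assoc] at a6 h5 h6 ⊢
      omega
  · refine ⟨by simp, by simp, by simpa using hc, by simp, by simp, by simp⟩
  · rintro ⟨c', A, P, d'⟩ t ⟨⟨-, a2, a3, a4, a5, a6⟩, ht⟩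
    dsimp only at a2 a3 a4 a5 a6
    rw [zero_add] at a3 a4
    have hA : A.Nodup := (a2.nodup_iff.2 hX).sublist (List.sublist_append_left _ _)
    have h0 : ms d'.get A = 0 := by
      by_contra h
      have : b ^ L ≤ b ^ L * ms d'.get A := Nat.le_mul_of_pos_right _ (by omega)
      omega
    refine ⟨a2, fun T hT h2 => ?_, by dsimp only; omega, by dsimp only; omega, by omega⟩
    have h3 := ms_perm μ a2
    rw [ms_append] at h3
    have h4 := a3 T hT (by dsimp only at h2; omega)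
    have h5 : ∑ v ∈ T, d'.get v ≤ ms d'.get A := by
      rw [ms_eq_sum _ hA]; exact sum_le_sum_of_subset hT
    dsimp only
    omega

end Crest.Agent.N325.Sd
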