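import Crest.Agent.N325.Sd.Step
import Crest.Agent.N325.Lf.Main

/-! Static expander decomposition: one trimming round is one LocalFlow call. -/

set_option autoImplicit false

namespace Crest.Agent.N325.Sd

open Finset Crest.Agent.N325.Lf

/-- sources `2 d`, sinks `μ`, capacities `2 c w` inside `A` -/
def trimLF (G : Net) (μ : ℕ → ℕ) (b k M c : ℕ) (A : List ℕ) (d : Arr ℕ) :
    R (List ℕ × List ℕ × Arr ℕ) := do
  let m ← setAllP (fun _ => true) A (Arr.cst false)
  let κ ← nat (2 * c)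
  let D ← nat (4 * κ * b)
  let h ← nat (2 * D * k + 2)
  let fu ← nat (h * ((6 + 2 * κ) * M) + M + 1)
  let r ← lf (sub G m.get κ (fun v => 2 * d.get v) μ h) (wIn G m.get) μ D M A fu
  let A' ← diffL A r.2.2.1
  let l ← accL Prod.fst (fun p => 2 * κ * p.2) r.2.2.2
  pure (A', r.2.2.1, l)

/-- cost factor of a trimming round -/
def ctrim (b k c : ℕ) : ℕ := (11 * (16 * c * b * k + 4) + 1) * (7 + 4 * c) + 10

/-- the numbers met in a trimming round -/
def xtrim (b k M c : ℕ) : ℕ := (16 * c * b * k + 2) * ((6 + 4 * c) * M) + M + 1 + 8 * c * b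

theorem ctrim_mono (b k : ℕ) {c c' : ℕ} (h : c ≤ c') : ctrim b k c ≤ ctrim b k c' := by
  unfold ctrim; gcongr

theorem xtrim_mono (b k M : ℕ) {c c' : ℕ} (h : c ≤ c') : xtrim b k M c ≤ xtrim b k M c' := by
  unfold xtrim; gcongr

variable {g : Gl} {G : Net} {V : List ℕ} {E : Finset ℕ} {μ : ℕ → ℕ}

theorem sum_wt_sub_le (hG : Graph G V E μ) {A : List ℕ} (hA : A.Nodup) (hAV : A ⊆ V) (m : ℕ → Bool)
    (κ h : ℕ) (a b : ℕ → ℕ) :
    ∑ v ∈ A.toFinset, (sub G m κ a b h).wt (eIn G E A.toFinset) v ≤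
      (2 + 2 * κ) * ms μ A + 2 * ms a A := by
  rw [ms_eq_sum μ hA, ms_eq_sum a hA, mul_sum, mul_sum, ← sum_add_distrib]
  refine sum_le_sum fun v hv => ?_
  have hv' := hAV (List.mem_toFinset.1 hv)
  have h1 := hG.pos v hv'
  have h2 := hG.len v hv'
  have h3 := (cvol_sub (G := G) (E := E) (A := A.toFinset) (m := m) (κ := κ) (h := h) (a := a)
    (b := b) v).trans (Nat.mul_le_mul_left κ (hG.deg v hv'))
  change 1 + (G.adj v).length + 2 * (a v + _) ≤ _
  rw [add_mul, mul_assoc]; omega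

theorem sp_trimLF (hG : Graph G V E μ) {b k M c n : ℕ} (hb : 1 ≤ b) (hc : 1 ≤ c) (hn : 1 ≤ n)
    (hnM : n ≤ M) (hk : M < 2 ^ k) (hX : xtrim b k M c ≤ g.X) {A : List ℕ} {d : Arr ℕ}
    (hA : A.Nodup) (hAV : A ⊆ V) (hAn : ms μ A ≤ n) (hd : ms d.get A ≤ n) :
    Sp g (trimLF G μ b k M c A d) fun o t =>
      TrimOK G E G.cap μ b c A d.get o.1 o.2.1 o.2.2.get ∧ t ≤ ctrim b k c * n := by
  have hlen : A.length ≤ n := (length_le_ms fun v hv => hG.pos v (hAV hv)).trans hAn
  have e2 : ms (fun v => 2 * d.get v) A = 2 * ms d.get A := by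
    simp only [ms, List.sum_map_mul_left]
  unfold xtrim at hX
  have x1 : c ≤ c * b := Nat.le_mul_of_pos_right _ hb
  have x2 : (6 + 4 * c) * M ≤ (16 * c * b * k + 2) * ((6 + 4 * c) * M) :=
    Nat.le_mul_of_pos_left _ (by omega)
  have x3 : 16 * c * b * k + 2 ≤ (16 * c * b * k + 2) * ((6 + 4 * c) * M) :=
    Nat.le_mul_of_pos_right _ (by have : 0 < M := by omega
                                  positivity)
  have x4 : (6 + 4 * c) * M = 6 * M + 2 * (2 * c * M) := by ring
  unfold trimLF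
  refine (sp_setAllP _ _ _).bind ?_
  rintro m t0 ⟨hm', rfl⟩
  have hm : ∀ v, m.get v = true ↔ v ∈ A.toFinset := fun v => by
    rw [hm', List.mem_toFinset]; by_cases h : v ∈ A <;> simp [h]
  have e3 : 4 * (2 * c) * b = 8 * c * b := by ring
  have e4 : 2 * (8 * c * b) * k + 2 = 16 * c * b * k + 2 := by ring
  have e5 : 6 + 2 * (2 * c) = 6 + 4 * c := by ring
  simp only [sp_bind, sp_nat, e3, e4, e5]
  refine ⟨by rw [mul_assoc 8] at hX; omega, by omega, by omega, by omega, ?_⟩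
  have hsub : A.toFinset ⊆ V.toFinset := fun v hv =>
    List.mem_toFinset.2 (hAV (List.mem_toFinset.1 hv))
  set N := sub G m.get (2 * c) (fun v => 2 * d.get v) μ (16 * c * b * k + 2) with hN
  have hw := sum_wt_sub_le hG hA hAV m.get (2 * c) (16 * c * b * k + 2) (fun v => 2 * d.get v) μ
  have hBw : (2 + 2 * (2 * c)) * ms μ A + 2 * ms (fun v => 2 * d.get v) A ≤ (6 + 4 * c) * n := by
    have := Nat.mul_le_mul_left (2 + 2 * (2 * c)) hAn
    rw [e2, show (6 + 4 * c) * n = (2 + 2 * (2 * c)) * n + 4 * n by ring]; omega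
  have C : Call N A.toFinset (eIn G E A.toFinset) (wIn G m.get) μ (2 * c) (8 * c * b) M k
      ((6 + 4 * c) * n) g.X A :=
    { wf := sub_WF hG.wf hsub hm
      start := ⟨fun v hv => List.mem_toFinset.2 hv, fun v hv _ => List.mem_toFinset.1 hv⟩
      capK := fun e _ => rfl
      dead := fun e he => by
        rcases Nat.mul_eq_zero.1 (he : 2 * c * wIn G m.get e = 0) with h | h <;> omega
      deg := fun v hv => (wdeg_sub v).trans (hG.deg v (hAV (List.mem_toFinset.1 hv)))
      muM := by rw [← ms_eq_sum μ hA]; omega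
      Mk := hk
      hh := e4.le
      bd := fun T hT _ => (sum_le_sum_of_subset hT).trans (hw.trans hBw)
      KM := by omega
      MX := by omega
      aX := by
        change ∑ v ∈ A.toFinset, 2 * d.get v ≤ _
        rw [← ms_eq_sum _ hA, e2]; omega }
  refine (sp_lf C ?_).mono ?_
  · have : (16 * c * b * k + 2) * ((6 + 4 * c) * n) ≤ (16 * c * b * k + 2) * ((6 + 4 * c) * M) := by
      gcongr
    change (16 * c * b * k + 2) * _ + _ < _
    omega
  rintro ⟨f, x, P, l⟩ t ⟨hr, ht⟩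
  dsimp only at hr ⊢
  have hPA : P ⊆ A := fun v hv => List.mem_toFinset.1 (hr.sub (List.mem_toFinset.2 hv))
  have h1 : ms μ P ≤ 2 * ms d.get A := by
    have := hr.bP
    rw [← e2, ms_eq_sum μ hr.nd, ms_eq_sum _ hA]
    exact (Nat.le_add_right _ _).trans this
  have h2 : 4 * c * b * (l.map Prod.snd).sum ≤ ms d.get A := by
    have := hr.sel.trans (min_le_left _ _)
    rw [← ms_eq_sum μ hr.nd, show 8 * c * b * (l.map Prod.snd).sum =
      2 * (4 * c * b * (l.map Prod.snd).sum) by ring] at this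
    omega
  have h3 : 4 * c * (l.map Prod.snd).sum ≤ 4 * c * b * (l.map Prod.snd).sum :=
    Nat.mul_le_mul_right _ (Nat.le_mul_of_pos_right _ hb)
  have e6 : ∀ l' : List (ℕ × ℕ), (l'.map fun p => 2 * (2 * c) * p.2).sum =
      4 * c * (l'.map Prod.snd).sum := fun l' => by
    rw [List.sum_map_mul_left]; ring
  refine (sp_diffL hA hr.nd hPA).mono ?_
  rintro A' u ⟨hp, hu⟩
  refine (sp_accL _ _ l (by rw [e6]; omega)).mono ?_
  rintro l' u' ⟨hl, hu'⟩
  have hs := sdiff_of_perm hp hA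
  have hA' : A'.Nodup := (hp.nodup_iff.2 hA).sublist (List.sublist_append_left _ _)
  have hA'A : A'.toFinset ⊆ A.toFinset := hs ▸ sdiff_subset
  have hsum : ∀ T : Finset ℕ, ∑ v ∈ T, l'.get v = 4 * c * lsum l T := fun T => by
    simp only [hl]; rw [sum_acc, e6]; rfl
  refine ⟨⟨hp, fun T hT => ?_, h1, ?_, ?_⟩, ?_⟩
  · have := hr.trim T (hs ▸ hT)
    rw [hs, crs_sub hm (hT.trans hA'A) hr.sub,
      crs_sub hm (hT.trans hA'A) (sdiff_subset.trans hA'A)] at this
    change ∑ v ∈ T, 2 * d.get v + _ ≤ ∑ v ∈ T, μ v + _ + _ at this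
    rw [← mul_sum, show 2 * (2 * c) = 4 * c by ring] at this
    rw [hsum]
    dsimp only
    omega
  · dsimp only
    rw [ms_eq_sum _ hA', hsum]
    have : lsum l A'.toFinset ≤ (l.map Prod.snd).sum :=
      (List.filter_sublist.map _).sum_le_sum fun _ _ => Nat.zero_le _
    refine le_trans ?_ h2
    rw [show b * (4 * c * lsum l A'.toFinset) = 4 * c * b * lsum l A'.toFinset by ring]
    exact Nat.mul_le_mul_left _ this
  · have := hr.cut
    rw [hs, crs_sub hm hr.sub hA'A, crs_comm] at this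
    have h4 : ∑ v ∈ P.toFinset, N.a v ≤ 2 * ms d.get A := by
      rw [← e2, ms_eq_sum _ hA]; exact sum_le_sum_of_subset hr.sub
    rw [show 2 * (2 * c) = 4 * c by ring] at this
    dsimp only
    omega
  · have h5 := hr.lenl
    change t ≤ 11 * (16 * c * b * k + 2 + 2) * _ + _ at ht
    have h6 : (6 + 4 * c) * n + 1 ≤ (7 + 4 * c) * n := by
      rw [show (7 + 4 * c) * n = (6 + 4 * c) * n + n by ring]; omega
    have h7 := Nat.mul_le_mul_left (11 * (16 * c * b * k + 2 + 2)) h6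
    have e7 : ctrim b k c * n =
        11 * (16 * c * b * k + 2 + 2) * ((7 + 4 * c) * n) + (7 + 4 * c) * n + 10 * n := by
      unfold ctrim; ring
    omega

end Crest.Agent.N325.Sd
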